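import Vale.Agent.P144C.Defs
import Vale.Agent.P144L.G.Raw
import Vale.Agent.P144L.G.Loc
import Vale.Agent.P144D.I.Cg.Corr

/-!
The model of the region near a mark.
-/

namespace Vale.Agent.P144C.G

open Finset Vale.Agent.P144Z Vale.Agent.P144L P144L.G
open Vale.Agent.P144Z.GeoA (Rch zd_tri zd_comm)

/-- An orthonormal frame. -/
def Fr (ν σ : ℂ) : Prop := ‖ν‖ = 1 ∧ (σ = Complex.I * ν ∨ σ = -(Complex.I * ν))

variable {ν σ : ℂ}

theorem Fr.nrm (h : Fr ν σ) : ‖σ‖ = 1 := by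
  rcases h.2 with rfl | rfl <;> simp [h.1]

theorem Fr.neg (h : Fr ν σ) : Fr ν (-σ) :=
  ⟨h.1, h.2.symm.imp (fun k => by rw [k, neg_neg]) fun k => by rw [k]⟩

theorem Fr.len (h : Fr ν σ) (v : ℤ × ℤ) : len v ^ 2 = ht ν v ^ 2 + ht σ v ^ 2 := by
  rcases h.2 with rfl | rfl
  · exact len_sq h.1 v
  · rw [ht_neg', neg_sq]
    exact len_sq h.1 v

theorem Fr.cn (h : Fr ν σ) {v : ℤ × ℤ} (hv : |ht σ v| ≤ ht ν v) : Cn ν v := by
  have h0 := (abs_nonneg _).trans hv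
  refine (abs_le_of_sq_le_sq' ?_ h0).2
  rw [mul_pow, div_pow, Real.sq_sqrt (by norm_num), h.len]
  have := pow_le_pow_left₀ (abs_nonneg _) hv 2
  rw [sq_abs] at this
  linarith

theorem Fr.cn' (h : Fr ν σ) {v : ℤ × ℤ} (hv : |ht σ v| ≤ -ht ν v) : Cn (-ν) v := by
  have := h.cn (v := -v) (by rwa [ht_neg, ht_neg, abs_neg])
  unfold Cn at *
  rwa [len_neg, ht_neg, ← ht_neg'] at this

theorem Fr.zd (h : Fr ν σ) (v : ℤ × ℤ) : (zd v 0 : ℝ) ≤ |ht ν v| + |ht σ v| := by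
  refine (zd_len v).trans (abs_le_of_sq_le_sq' ?_ (by positivity)).2
  rw [h.len, add_sq, sq_abs, sq_abs]
  have := mul_nonneg (abs_nonneg (ht ν v)) (abs_nonneg (ht σ v))
  linarith

theorem Fr.mv (h : Fr ν σ) (p q : ℝ) : ∃ d, |ht ν d - p| ≤ 2 ∧ |ht σ d - q| ≤ 2 := by
  have s := GeoA.sq_add h.1
  have key : ∀ {μ : ℂ}, ‖μ‖ = 1 → ∀ a b : ℝ, |ht μ (⌊a⌋, ⌊b⌋) - (a * μ.re + b * μ.im)| ≤ 2 := by
    intro μ hμ a b
    have a1 := GeoA.abs_mul_le (a := ⌊a⌋ - a) (D := 1) (abs_le.2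
      ⟨by linarith [Int.lt_floor_add_one a], by linarith [Int.floor_le a]⟩) (GeoA.abs_re hμ)
    have a2 := GeoA.abs_mul_le (a := ⌊b⌋ - b) (D := 1) (abs_le.2
      ⟨by linarith [Int.lt_floor_add_one b], by linarith [Int.floor_le b]⟩) (GeoA.abs_im hμ)
    rw [abs_le] at *
    simp only [ht]
    constructor <;> linarith [a1.1, a1.2, a2.1, a2.2]
  refine ⟨(⌊p * ν.re + q * σ.re⌋, ⌊p * ν.im + q * σ.im⌋), ?_, ?_⟩
  · have := key h.1 (p * ν.re + q * σ.re) (p * ν.im + q * σ.im)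
    rwa [show (p * ν.re + q * σ.re) * ν.re + (p * ν.im + q * σ.im) * ν.im = p by
      rcases h.2 with rfl | rfl <;> simp <;> linear_combination p * s] at this
  · have := key h.nrm (p * ν.re + q * σ.re) (p * ν.im + q * σ.im)
    rwa [show (p * ν.re + q * σ.re) * σ.re + (p * ν.im + q * σ.im) * σ.im = q by
      rcases h.2 with rfl | rfl <;> simp <;> linear_combination q * s] at this

theorem ht_le {μ : ℂ} (hμ : ‖μ‖ = 1) {v : ℤ × ℤ} {n : ℕ} (h : zd v 0 ≤ n) :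
    |ht μ v| ≤ 3 / 2 * n := by
  have : (zd v 0 : ℝ) ≤ n := by exact_mod_cast h
  linarith [abs_ht hμ v, len_zd v]

theorem ht_dif {μ : ℂ} (hμ : ‖μ‖ = 1) {u v : ℤ × ℤ} (o : ℤ × ℤ) {n : ℕ} (h : zd u v ≤ n) :
    ht μ (u - o) ≤ ht μ (v - o) + 3 / 2 * n ∧ ht μ (v - o) ≤ ht μ (u - o) + 3 / 2 * n := by
  have h1 := abs_le.1 (ht_le hμ (zd_sub u v ▸ h))
  have h2 := B1b.ht_add μ (u - v) (v - o)
  rw [sub_add_sub_cancel] at h2
  constructor <;> linarith [h1.1, h1.2]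

theorem ht_sh (μ : ℂ) (u d o : ℤ × ℤ) : ht μ (u + d - o) = ht μ (u - o) + ht μ d := by
  rw [add_sub_right_comm, B1b.ht_add]

theorem epi_half (μ : ℂ) (c : ℝ) (o : ℤ × ℤ) {κ : ℝ} (hκ : 0 ≤ κ) :
    Epi {v | c < ht μ (v - o)} μ κ := fun u hu v hv => by
  have := mul_nonneg hκ (GeoA.len_nonneg v)
  simp only [Set.mem_ofPred_eq, ht_sh] at *
  linarith

/-- The outside of the model. -/
def Out (S : Set (ℤ × ℤ)) (ν σ : ℂ) (o : ℤ × ℤ) (R : ℝ) (v : ℤ × ℤ) : Prop :=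
  v ∉ S ∨ R < ht σ (v - o) ∨ R < ht (-σ) (v - o) ∨ 3 * R < ht ν (v - o)

variable {S : Set (ℤ × ℤ)} {o : ℤ × ℤ} {R : ℝ}

theorem Out.neg {v : ℤ × ℤ} (h : Out S ν σ o R v) : Out S ν (-σ) o R v := by
  unfold Out at *
  rw [neg_neg]
  tauto

theorem Out.piece (hF : Fr ν σ) (hS : Epi S ν (√2 / 2)) {v : ℤ × ℤ} (h : Out S ν σ o R v) :
    ∃ A μ, ‖μ‖ = 1 ∧ Epi A μ (√2 / 2) ∧ v ∈ A ∧ ∀ x ∈ A, Out S ν σ o R x := by
  rcases h with h | h | h | h
  · exact ⟨Sᶜ, -ν, by rw [norm_neg, hF.1], epi_compl hS, h, fun _ => Or.inl⟩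
  · exact ⟨_, _, hF.nrm, epi_half σ R o (by positivity), h, fun _ k => Or.inr (Or.inl k)⟩
  · exact ⟨_, _, hF.neg.nrm, epi_half (-σ) R o (by positivity), h,
      fun _ k => Or.inr (Or.inr (Or.inl k))⟩
  · exact ⟨_, _, hF.1, epi_half ν (3 * R) o (by positivity), h,
      fun _ k => Or.inr (Or.inr (Or.inr k))⟩

theorem to_side (hF : Fr ν σ) (hS : Epi S ν (√2 / 2)) {f : ℤ × ℤ} (h : Out S ν σ o R f) {s : ℕ}
    (hs : 2 * (s : ℝ) ≤ R) (hf : R - 4 * s ≤ ht σ (f - o)) : ∃ g, R < ht σ (g - o) ∧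
      zd g f ≤ 14 * (s + 1) ∧ Rch (fun v => Out S ν σ o R v ∧ zd v f ≤ 224 * (s + 1)) f g := by
  have s0 : (0 : ℝ) ≤ s := Nat.cast_nonneg s
  have key : ∀ p : ℝ, |p| = 4 * s + 7 → ∃ d, |ht ν d - p| ≤ 2 ∧ |ht σ d| ≤ 4 * s + 5 ∧
      R < ht σ (f + d - o) ∧ zd (f + d) f ≤ 14 * (s + 1) := fun p hp => by
    obtain ⟨d, d1, d2⟩ := hF.mv p (4 * s + 3)
    have d3 := hF.zd d
    have d4 := abs_add_le (ht ν d - p) p
    rw [sub_add_cancel] at d4
    rw [abs_le] at d2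
    have d5 : |ht σ d| ≤ 4 * s + 5 := abs_le.2 ⟨by linarith, by linarith⟩
    refine ⟨d, d1, d5, by rw [ht_sh]; linarith, ?_⟩
    rw [zd_add_left]
    exact_mod_cast (show (zd d 0 : ℝ) ≤ 14 * (s + 1) by linarith)
  rcases h with h | h | h | h
  · obtain ⟨d, d1, d2, d3, d4⟩ := key (-(4 * s + 7)) (by rw [abs_neg, abs_of_pos (by positivity)])
    have e := epi_compl hS
    refine ⟨_, d3, d4, rch_mono (fun x k => ⟨Or.inl k.1, by omega⟩) (rch_epi
      (by rw [norm_neg, hF.1]) e h (e f h d (hF.cn' ?_)) d4)⟩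
    linarith [(abs_le.1 d1).2]
  · exact ⟨f, h, by simp [zd], Relation.ReflTransGen.refl⟩
  · rw [ht_neg'] at h
    exact absurd hf (by linarith)
  · obtain ⟨d, d1, d2, d3, d4⟩ := key (4 * s + 7) (abs_of_pos (by positivity))
    have e := epi_half ν (3 * R) o (κ := √2 / 2) (by positivity)
    refine ⟨_, d3, d4, rch_mono (fun x k => ⟨Or.inr (Or.inr (Or.inr k.1)), by omega⟩) (rch_epi
      hF.1 e h (e f h d (hF.cn ?_)) d4)⟩
    linarith [(abs_le.1 d1).1]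

theorem side_conn (hF : Fr ν σ) (hS : Epi S ν (√2 / 2)) {f f' : ℤ × ℤ} (h : Out S ν σ o R f)
    (h' : Out S ν σ o R f') {s : ℕ} (hs : 2 * (s : ℝ) ≤ R) (hd : zd f' f ≤ s)
    (hf : R - 2 * s ≤ ht σ (f - o)) :
    Rch (fun v => Out S ν σ o R v ∧ zd v f ≤ 500 * (s + 1)) f f' := by
  have s0 : (0 : ℝ) ≤ s := Nat.cast_nonneg s
  obtain ⟨g, a1, a2, a3⟩ := to_side hF hS h hs (by linarith)
  obtain ⟨g', b1, b2, b3⟩ := to_side hF hS h' hs (by linarith [(ht_dif hF.nrm o hd).2])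
  have t1 := zd_tri g' f' g
  have t2 := zd_tri f' f g
  rw [zd_comm f g] at t2
  refine ((rch_mono (fun x k => ⟨k.1, by omega⟩) a3).trans (rch_mono (fun x k => ⟨Or.inr (Or.inl k.1),
    ?_⟩) (rch_epi (s := 29 * (s + 1)) hF.nrm (epi_half σ R o (by positivity)) a1 b1
      (by omega)))).trans (rch_mono (fun x k => ⟨k.1, ?_⟩) b3).symm
  · have := zd_tri x g f
    omega
  · have := zd_tri x f' f
    omega

theorem mem_of (hF : Fr ν σ) (hS : Epi S ν (√2 / 2)) {u v : ℤ × ℤ} (hu : u ∈ S) {n : ℕ}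
    (h : zd u o ≤ n) (hv : |ht σ (v - o)| + 3 * n ≤ ht ν (v - o)) : v ∈ S := by
  have a1 := abs_le.1 (ht_le hF.1 (zd_sub u o ▸ h))
  have a2 := ht_le hF.nrm (zd_sub u o ▸ h)
  have e : ∀ μ, ht μ (v - u) = ht μ (v - o) - ht μ (u - o) := fun μ => by
    have := B1b.ht_add μ (v - u) (u - o)
    rw [sub_add_sub_cancel] at this
    linarith
  have := hS u hu (v - u) (hF.cn (by
    rw [e, e]
    linarith [abs_sub (ht σ (v - o)) (ht σ (u - o)), a1.2]))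
  rwa [add_sub_cancel] at this

theorem not_mem_of (hF : Fr ν σ) (hS : Epi S ν (√2 / 2)) {u v : ℤ × ℤ} (hu : u ∉ S) {n : ℕ}
    (h : zd u o ≤ n) (hv : |ht σ (v - o)| + 3 * n ≤ -ht ν (v - o)) : v ∉ S := by
  have F' : Fr (-ν) σ := ⟨by rw [norm_neg, hF.1], hF.2.symm.imp (fun k => by rw [k, mul_neg])
    fun k => by rw [k, mul_neg, neg_neg]⟩
  exact mem_of F' (epi_compl hS) (o := o) hu h (by rwa [ht_neg'])

theorem out_conn (hF : Fr ν σ) (hS : Epi S ν (√2 / 2)) {u : ℤ × ℤ} (hu : u ∈ S) (h1 : zd u o ≤ 1)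
    {f f' : ℤ × ℤ} (h : Out S ν σ o R f) (h' : Out S ν σ o R f') {s : ℕ}
    (hs : 2 * (s : ℝ) + 3 ≤ R) (hd : zd f' f ≤ s) :
    Rch (fun v => Out S ν σ o R v ∧ zd v f ≤ 500 * (s + 1)) f f' := by
  have s0 : (0 : ℝ) ≤ s := Nat.cast_nonneg s
  by_cases c1 : R - 2 * s ≤ ht σ (f - o)
  · exact side_conn hF hS h h' (by linarith) hd c1
  by_cases c2 : R - 2 * s ≤ ht (-σ) (f - o)
  · exact rch_mono (fun x k => ⟨by simpa using k.1.neg, k.2⟩)
      (side_conn hF.neg hS h.neg h'.neg (by linarith) hd c2)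
  have a1 := ht_dif hF.nrm o hd
  have a2 := ht_dif hF.1 o hd
  rw [ht_neg'] at c2
  have a3 : ∀ g, g ∉ S → -R ≤ ht σ (g - o) → ht σ (g - o) ≤ R → ht ν (g - o) ≤ R + 3 :=
    fun g k1 k2 k3 => not_lt.1 fun k => k1 (mem_of hF hS hu h1 (by
      have := abs_le.2 ⟨k2, k3⟩
      push_cast
      linarith))
  unfold Out at h h'
  rw [ht_neg'] at h h'
  by_cases c3 : f ∈ S
  · have b1 : 3 * R < ht ν (f - o) := by
      rcases h with h | h | h | h
      exacts [(h c3).elim, by linarith, by linarith, h]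
    have b2 : 3 * R < ht ν (f' - o) := by
      rcases h' with h | h | h | h
      exacts [by linarith [a3 f' h (by linarith) (by linarith)], by linarith, by linarith, h]
    exact rch_mono (fun x k => ⟨Or.inr (Or.inr (Or.inr k.1)), by omega⟩)
      (rch_epi hF.1 (epi_half ν (3 * R) o (by positivity)) b1 b2 hd)
  · have b2 : f' ∉ S := by
      rcases h' with h | h | h | h
      exacts [h, by linarith, by linarith, by linarith [a3 f c3 (by linarith) (by linarith)]]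
    exact rch_mono (fun x k => ⟨Or.inl k.1, by omega⟩)
      (rch_epi (by rw [norm_neg, hF.1]) (epi_compl hS) c3 b2 hd)

theorem ray_epi {A : Set (ℤ × ℤ)} {μ : ℂ} (hμ : ‖μ‖ = 1) (hA : Epi A μ (√2 / 2)) {v : ℤ × ℤ}
    (hv : v ∈ A) (n : ℕ) : ∃ u, zd u v = n ∧ Rch (· ∈ A) v u := by
  obtain ⟨e, -, ue, -, h1, -⟩ := exists_ax hμ
  have c1 : Cn μ e := by unfold Cn; rwa [ue.len.1, mul_one]
  have key : v + n • e ∈ A ∧ Rch (· ∈ A) v (v + n • e) := by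
    induction n with
    | zero =>
      rw [zero_nsmul, add_zero]
      exact ⟨hv, Relation.ReflTransGen.refl⟩
    | succ n ih =>
      rw [succ_nsmul, ← add_assoc]
      exact ⟨hA _ ih.1 e c1, ih.2.trans (rch_step ue ih.1 (hA _ ih.1 e c1))⟩
  refine ⟨_, ?_, key.2⟩
  rw [zd_add_left]
  rcases ue with rfl | rfl | rfl | rfl <;> simp [zd]

variable {M : ℕ} [NeZero M]

theorem img_chart {X : Finset (ℤ × ℤ)} {T r : ℕ} (hX : ∀ v ∈ X, zd v 0 ≤ T) (hM : 4 * (T + r) ≤ M)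
    (z : Tor M) {v : ℤ × ℤ} (hv : zd v 0 ≤ r) : z + prj M v ∈ X.image (prj M) ↔ lft z + v ∈ X := by
  have M0 := NeZero.pos M
  rw [mem_image]
  constructor
  · rintro ⟨u, hu, e⟩
    have h7 := hX u hu
    simp only [zd, Prod.fst_zero, Prod.snd_zero, sub_zero, max_le_iff] at h7 hv
    have h8 : lft z = u - v := by
      rw [← lft_prj (M := M) (v := u - v), G.prj_sub, e, add_sub_cancel_right] <;>
        simp only [Prod.fst_sub, Prod.snd_sub, Int.abs_eq_natAbs] <;> omega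
    rwa [h8, sub_add_cancel]
  · intro hu
    exact ⟨_, hu, by rw [G.prj_add, prj_lft]⟩

/-- Rough boundaries from planar data. -/
theorem rgh_of {X : Finset (ℤ × ℤ)} {T N r : ℕ} (hX : ∀ v ∈ X, zd v 0 ≤ T)
    (hM : 4 * (T + r + 2) ≤ M) (h1 : ∀ y f f' s, N * (s + 1) ≤ r → zd f y ≤ s → zd f' y ≤ s →
      f ∉ X → f' ∉ X → Rch (fun v => v ∉ X ∧ zd v y ≤ N * (s + 1)) f f')
    (h2 : ∀ f s, f ∉ X → ∃ x, zd x 0 + s ≤ N * (s + 1) ∧ ∀ g, zd g x ≤ s → f + g ∉ X)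
    (h3 : ICg.Cov (B5a2.Lay X) N) (hN : 1 ≤ N) : Rgh (X.image (prj M)) N r := by
  have ch := fun z v hv => img_chart (M := M) (r := r) hX (by omega) z (v := v) hv
  refine ⟨fun y s hs f f' hf hf' hI hI' => ?_, fun f hf s hs => ?_, fun y => ?_⟩
  · have l1 : s + 1 ≤ N * (s + 1) := Nat.le_mul_of_pos_left _ hN
    have key : ∀ g, tdist g y ≤ s → g ∉ X.image (prj M) →
        zd (lft y + lft (g - y)) (lft y) ≤ s ∧ lft y + lft (g - y) ∉ X := by
      intro g hg hgI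
      rw [← GeoA.zd_lft] at hg
      refine ⟨by rwa [zd_add_left], fun k => hgI ?_⟩
      have := (ch y _ (by omega)).2 k
      rwa [G.add_prj_lft] at this
    have p4 := h1 _ _ _ s hs (key f hf hI).1 (key f' hf' hI').1 (key f hf hI).2 (key f' hf' hI').2
    generalize N * (s + 1) = n at *
    have e : ∀ g, y + prj M (lft y + lft (g - y) - lft y) = g := fun g => by
      rw [add_sub_cancel_left, G.add_prj_lft]
    rw [← e f, ← e f']
    refine Relation.ReflTransGen.lift (fun x => y + prj M (x - lft y)) ?_ _ _ p4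
    rintro u w ⟨q1, q2, q3⟩
    have o : ∀ u, u ∉ X ∧ zd u (lft y) ≤ n →
        tdist (y + prj M (u - lft y)) y ≤ n ∧ y + prj M (u - lft y) ∉ X.image (prj M) := by
      intro u q
      have h1 : zd (u - lft y) 0 ≤ n := zd_sub u _ ▸ q.2
      refine ⟨(GeoA.tdist_le_zd y _).trans h1, fun k => q.1 ?_⟩
      have := (ch y _ (h1.trans hs)).1 k
      rwa [add_sub_cancel] at this
    refine ⟨(o u q1).1, (o w q2).1, (o u q1).2, (o w q2).2, ?_⟩
    beta_reduce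
    rcases q3 with rfl | rfl | rfl | rfl
    · exact ⟨0, Or.inl (by rw [add_sub_right_comm, G.prj_add, G.uv_zero, add_assoc])⟩
    · exact ⟨1, Or.inl (by rw [add_sub_right_comm, G.prj_add, G.uv_one, add_assoc])⟩
    · exact ⟨0, Or.inr (by rw [add_sub_right_comm]; simp [uv, prj, add_assoc])⟩
    · exact ⟨1, Or.inr (by rw [add_sub_right_comm]; simp [uv, prj, add_assoc])⟩
  · obtain ⟨x, x1, x2⟩ := h2 (lft f) s fun k => hf (prj_lft f ▸ mem_image_of_mem _ k)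
    refine ⟨f + prj M x, (GeoA.tdist_le_zd _ _).trans (by omega), fun g hg k => ?_⟩
    obtain ⟨w, w1, -, w2⟩ := near_in (S := {v | lft f + v ∈ X}) (ch f) (by omega) hg
    exact x2 w w1 (w2.1 k)
  · obtain ⟨H, V, a, b⟩ := ICg.trB_of_cov hX (M := M) (by omega) h3 (r + tdist y 0)
    exact ⟨H, V, fun x hx => a x ((tdist_triangle x y 0).trans (by omega)), b⟩

theorem cov_of_trB {I : Finset (Tor M)} {z : Tor M} {r N : ℕ} (h : TrB I z r N)
    (hM : 4 * (tdist z 0 + r + 1) ≤ M)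
    (hS : ∀ v, zd v (lft z) ≤ r → (prj M v ∈ I ↔ v ∈ S)) :
    ICg.Cov (fun v => B5a2.Lay S v ∧ zd v (lft z) + 2 ≤ r) N := by
  obtain ⟨H, V, a, b, c⟩ := h
  refine ⟨fun t => (H.filter fun x => x.2 = (t : ZMod M)).image fun x => (lft x).1,
    fun t => (V.filter fun x => x.1 = (t : ZMod M)).image fun x => (lft x).2,
    fun t => ⟨card_image_le.trans (b _), card_image_le.trans (c _)⟩,
    fun v ⟨⟨⟨f, f1, f2⟩, g, g1, g2⟩, hv⟩ => ?_⟩
  have t1 := zd_tri f v (lft z)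
  have t2 := zd_tri g v (lft z)
  have t3 := zd_tri v (lft z) 0
  rw [ICg.zd_lft_zero] at t3
  have e : lft (prj M v) = v := by
    simp only [zd, Prod.fst_zero, Prod.snd_zero, sub_zero, max_le_iff] at t3 hv
    apply lft_prj <;> rw [Int.abs_eq_natAbs] <;> omega
  have t4 : tdist (prj M v) z ≤ r := by
    have := tdist_prj_le (M := M) v (lft z)
    rw [prj_lft] at this
    exact this.trans (show zd v (lft z) ≤ r by omega)
  refine (a _ t4 ⟨⟨_, (hS f (by omega)).2 f1, (tdist_prj_le f v).trans f2⟩, _,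
    fun k => g1 ((hS g (by omega)).1 k), (tdist_prj_le g v).trans g2⟩).imp (fun k => ?_) fun k => ?_
  · exact mem_image.2 ⟨_, mem_filter.2 ⟨k, rfl⟩, by rw [e]⟩
  · exact mem_image.2 ⟨_, mem_filter.2 ⟨k, rfl⟩, by rw [e]⟩

theorem modM : ModM := by
  classical
  intro N
  refine ⟨N + 1010, 100, by norm_num, fun M _ I r z a ν h hr hM => ?_⟩
  obtain ⟨S₀, hS₀, hI⟩ := h.cone
  obtain ⟨o, ho⟩ : ∃ o, o = lft z := ⟨_, rfl⟩
  obtain ⟨S, hS, hI⟩ : ∃ S, Epi S ν (√2 / 2) ∧ ∀ v, zd v o ≤ r → (prj M v ∈ I ↔ v ∈ S) := by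
    refine ⟨{x | x - o ∈ S₀}, fun u hu v hv => ?_, fun x hx => ?_⟩
    · have := hS₀ _ hu v hv
      rwa [sub_add_eq_add_sub] at this
    · have := hI (x - o) (by rwa [← zd_sub])
      rwa [G.prj_sub, ho, prj_lft, add_sub_cancel, ← ho] at this
  have hF : Fr ν (Complex.I * ν) := ⟨h.nrm, Or.inl rfl⟩
  generalize Complex.I * ν = σ at hF
  have cc : ∀ k, zd (o - cn k) o ≤ 1 ∧ (z - prj M (cn k) ∈ I ↔ o - cn k ∈ S) := fun k => by
    have a1 := IMark.zd_cn o k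
    rw [← hI _ (by omega), G.prj_sub, ho, prj_lft]
    exact ⟨ho ▸ a1, Iff.rfl⟩
  obtain ⟨k, hk⟩ := h.touch
  have u0 := (cc k).2.1 hk
  have u1 : o - cn a ∉ S := fun c => h.rem.2 ((cc a).2.2 c)
  obtain ⟨R, hR⟩ : ∃ R : ℕ, R = r / 8 := ⟨_, rfl⟩
  have bd : ∀ v, ¬ Out S ν σ o R v → zd v o + 4 ≤ r := fun v hv => by
    simp only [Out, not_or, not_not, not_lt, ht_neg'] at hv
    have a1 : |ht σ (v - o)| ≤ R := abs_le.2 ⟨by linarith [hv.2.2.1], hv.2.1⟩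
    have a2 : -ht ν (v - o) < |ht σ (v - o)| + 3 * (1 : ℕ) :=
      not_le.1 fun c => not_mem_of hF hS u1 (cc a).1 c hv.1
    have a3 := hF.zd (v - o)
    have a4 : |ht ν (v - o)| ≤ 3 * R + 3 := by
      push_cast at a2
      exact abs_le.2 ⟨by linarith [abs_nonneg (ht σ (v - o))], by linarith [hv.2.2.2]⟩
    have a5 : zd (v - o) 0 ≤ 4 * R + 3 := by
      exact_mod_cast (show (zd (v - o) 0 : ℝ) ≤ 4 * R + 3 by linarith)
    rw [zd_sub]
    omega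
  obtain ⟨X, hX⟩ : ∃ X : Finset (ℤ × ℤ), ∀ v, v ∉ X ↔ Out S ν σ o R v := by
    refine ⟨(Icc (o.1 - r) (o.1 + r) ×ˢ Icc (o.2 - r) (o.2 + r)).filter
      fun v => ¬ Out S ν σ o R v, fun v => not_iff_comm.1 ⟨fun c => mem_filter.2 ⟨?_, c⟩,
        fun c => (mem_filter.1 c).2⟩⟩
    have := bd v c
    simp only [zd, mem_product, mem_Icc] at this ⊢
    omega
  have b1 : ∀ v ∈ X, zd v o + 4 ≤ r := fun v hv => bd v fun c => (hX v).2 c hv
  have o0 : zd o 0 = tdist z 0 := ho ▸ ICg.zd_lft_zero z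
  have b2 : ∀ v ∈ X, zd v 0 ≤ tdist z 0 + r := fun v hv => by
    have := b1 v hv
    have := zd_tri v o 0
    omega
  have cov : ICg.Cov (B5a2.Lay X) (N + 1010) := by
    have c0 := cov_of_trB h.tr (by omega) (ho ▸ hI)
    have c1 := fun (μ : ℂ) (c : ℝ) (hμ : ‖μ‖ = 1) =>
      ICg.cov_epi hμ (epi_half μ c o (κ := 1 / 8) (by norm_num)) 0
    refine (c0.or ((c1 σ R hF.nrm).or ((c1 _ R hF.neg.nrm).or (c1 ν (3 * R) hF.1)))).mono
      (fun v ⟨⟨f, f1, f2⟩, g, g1, g2⟩ => ?_) (by omega)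
    have f3 := mt (hX f).2 (not_not.2 f1)
    have f4 := b1 f f1
    have f5 := zd_tri v f o
    rw [zd_comm v f] at f5
    simp only [Out, not_or, not_not] at f3
    simp only [sub_zero, ← ho]
    rcases (hX g).1 g1 with c | c | c | c
    · exact Or.inl ⟨⟨⟨f, f3.1, f2⟩, g, c, g2⟩, by omega⟩
    · exact Or.inr (Or.inl ⟨⟨g, c, g2⟩, f, f3.2.1, f2⟩)
    · exact Or.inr (Or.inr (Or.inl ⟨⟨g, c, g2⟩, f, f3.2.2.1, f2⟩))
    · exact Or.inr (Or.inr (Or.inr ⟨⟨g, c, g2⟩, f, f3.2.2.2, f2⟩))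
  refine ⟨X.image (prj M), rgh_of b2 (by omega) (fun y f f' s hs a1 a2 a3 a4 => ?_)
    (fun f s hf => ?_) cov (by omega), fun f hf => ?_, ICg.connB_of_allC b2 (by omega) ?_,
    ICg.trB_of_cov b2 (by omega) cov M, fun f hf => ?_⟩
  · have l1 : 1010 * (s + 1) ≤ (N + 1010) * (s + 1) := Nat.mul_le_mul_right _ (Nat.le_add_left _ _)
    have t1 := zd_tri f' y f
    rw [zd_comm y f] at t1
    refine rch_mono (fun x k => ⟨(hX x).2 k.1, ?_⟩) (out_conn hF hS u0 (cc k).1 ((hX f).1 a3)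
      ((hX f').1 a4) (s := 2 * s) (by exact_mod_cast (by omega : 2 * (2 * s) + 3 ≤ R)) (by omega))
    have := zd_tri x f y
    omega
  · obtain ⟨A, μ, a1, a2, a3, a4⟩ := ((hX f).1 hf).piece hF hS
    have l1 : 1010 * (s + 1) ≤ (N + 1010) * (s + 1) := Nat.mul_le_mul_right _ (Nat.le_add_left _ _)
    have a5 := zd_rd a1 (9 * (s + 1))
    refine ⟨rd μ (9 * (s + 1)), by omega, fun g hg => (hX _).2 (a4 _ (a2 f a3 g ?_))⟩
    have := cn_rd a1 le_rfl (zd_sub _ _ ▸ hg)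
    rwa [add_sub_cancel] at this
  · obtain ⟨u, hu, rfl⟩ := mem_image.1 hf
    have a1 := tdist_prj_le (M := M) u o
    have a2 := b1 u hu
    rw [ho, prj_lft, ← ho] at a1
    exact a1.trans (show zd u o ≤ r by omega)
  · refine ICg.allC_sub (X := {v | zd v o ≤ r}) (Y := X) (by simpa using ICg.out_box o r)
      (fun v hv => show zd v o ≤ r by have := b1 v hv; omega) fun v hv hv' => ?_
    obtain ⟨A, μ, a1, a2, a3, a4⟩ := ((hX v).1 hv').piece hF hS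
    obtain ⟨u, a5, a6⟩ := ray_epi a1 a2 a3 (2 * r + 1)
    refine ⟨u, fun c => ?_, rch_mono (fun x c => (hX x).2 (a4 x c)) a6⟩
    have t1 := zd_tri u o v
    rw [zd_comm o v] at t1
    change zd u o ≤ r at c
    change zd v o ≤ r at hv
    omega
  · rw [← GeoA.zd_lft] at hf
    rw [← G.add_prj_lft f z, img_chart b2 (r := r) (by omega) z (by omega), ← ho]
    generalize lft (f - z) = d at hf
    have a1 := abs_le.1 (ht_le hF.1 hf)
    have a2 := abs_le.1 (ht_le hF.nrm hf)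
    have a3 : 2 * ((r / 100 : ℕ) : ℝ) ≤ R := by exact_mod_cast (by omega : 2 * (r / 100) ≤ R)
    have a4 : (0 : ℝ) ≤ (r / 100 : ℕ) := Nat.cast_nonneg _
    have a5 := hI (o + d) (by rw [zd_add_left]; omega)
    rw [G.prj_add, ho, prj_lft, ← ho] at a5
    rw [a5, ← not_iff_not, hX, Out, add_sub_cancel_left, ht_neg']
    refine ⟨fun c => ?_, Or.inl⟩
    rcases c with c | c | c | c
    exacts [c, by linarith [a2.2], by linarith [a2.1], by linarith [a1.2]]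

end Vale.Agent.P144C.G
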