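import Vale.Agent.P144C.G.MarkA

/-!
The marked points of a boundary condition.
-/

namespace Vale.Agent.P144C.G

open Finset Vale.Agent.P144Z Vale.Agent.P144L P144L.G IMark
open Vale.Agent.P144Z.GeoA (zd_tri zd_comm)

/-- The chart at a sign change. -/
structure Chp (Λ : Finset (ℤ × ℤ)) (b : ℤ × ℤ → Bool) (n r : ℕ) (p : ℤ × ℤ) (S : Set (ℤ × ℤ))
    (ν τ : ℂ) : Prop where
  fr : Fr ν τ
  epi : Epi S ν (√2 / 2)
  inn : ∃ f ∈ S, zd f p ≤ 4
  out : ∃ f, f ∉ S ∧ zd f p ≤ 4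
  mem : ∀ g, zd g p ≤ r → (g ∈ Λ ↔ g ∈ S)
  sgn : ∀ g, zd g p ≤ r → g ∉ Λ → ∀ u ∈ Λ, n * (zd u g + 1) ≤ zd g p →
    (b g = true ↔ 0 < ht τ (g - p))

variable {ν τ : ℂ} {Λ : Finset (ℤ × ℤ)} {b : ℤ × ℤ → Bool} {S : Set (ℤ × ℤ)} {p : ℤ × ℤ}
  {n r R : ℕ}

theorem Chp.big (h : Chp Λ b n r p S ν τ) {g u : ℤ × ℤ} (hg : g ∉ Λ) (hu : u ∈ Λ)
    (h1 : zd u g ≤ R) (h2 : zd g p + R ≤ r) : (zd g p : ℝ) ≤ 2 * |ht τ (g - p)| + 3 * R + 12 := by
  obtain ⟨f, f1, f2⟩ := h.inn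
  obtain ⟨f', f3, f4⟩ := h.out
  have t1 := zd_tri u g p
  have a1 := mt (mem_of h.fr h.epi f1 f2) fun c => hg ((h.mem g (by omega)).2 c)
  have a2 := mt (not_mem_of h.fr h.epi f3 f4) (not_not.2 ((h.mem u (by omega)).1 hu))
  have a3 := ht_dif h.fr.1 p h1
  have a4 := ht_dif h.fr.nrm p h1
  have a5 : |ht τ (u - p)| ≤ |ht τ (g - p)| + 3 / 2 * R :=
    abs_le.2 ⟨by linarith [neg_abs_le (ht τ (g - p))], by linarith [le_abs_self (ht τ (g - p))]⟩
  have a6 := h.fr.zd (g - p)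
  have R0 : (0 : ℝ) ≤ R := Nat.cast_nonneg R
  push_cast at a1 a2
  have a7 : |ht ν (g - p)| ≤ |ht τ (g - p)| + 3 * R + 12 := abs_le.2 ⟨by linarith, by linarith⟩
  rw [zd_sub]
  linarith

theorem cn2 (v y : ℤ × ℤ) (j : Fin 4) :
    zd (v - cn j) y ≤ zd v y + 1 ∧ zd v y ≤ zd (v - cn j) y + 1 ∧ zd y (v - cn j) ≤ zd y v + 1 := by
  have a1 := IMark.zd_cn v j
  have a2 := zd_tri (v - cn j) v y
  have a3 := zd_tri v (v - cn j) y
  rw [zd_comm v (v - cn j)] at a3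
  rw [zd_comm y, zd_comm y]
  omega

theorem Chp.no_wall (h : Chp Λ b n r p S ν τ) {v u : ℤ × ℤ} {a : Fin 4} (h1 : RemE Λ v a)
    (hu : u ∈ Λ) (h2 : zd u v ≤ R) (h3 : zd v p + R + 2 ≤ r)
    (h4 : n * (R + 2) + 3 * R + 30 ≤ zd v p) : ¬ WallE b v a := by
  have a1 := cn2 v p (a - 1)
  have a2 := cn2 v p a
  have a3 := cn2 v u (a - 1)
  have a4 := cn2 v u a
  have a5 := cn2 v (v - cn a) (a - 1)
  have a6 := cn2 v v a
  have a0 : zd v v = 0 := by simp [zd]
  have b1 := h.sgn _ (by omega) h1.1 u hu ((Nat.mul_le_mul_left n (by omega : _ ≤ R + 2)).trans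
    (by omega))
  have b2 := h.sgn _ (by omega) h1.2 u hu ((Nat.mul_le_mul_left n (by omega : _ ≤ R + 2)).trans
    (by omega))
  have b3 := h.big h1.1 hu (R := R + 1) (by omega) (by omega)
  have b4 := ht_dif h.fr.nrm p (u := v - cn a) (v := v - cn (a - 1)) (n := 2) (by omega)
  have b5 : 3 * (R : ℝ) + 29 ≤ zd (v - cn (a - 1)) p := by
    exact_mod_cast (by omega : 3 * R + 29 ≤ zd (v - cn (a - 1)) p)
  push_cast at b3 b4
  refine not_not.2 ?_
  rw [Bool.eq_iff_iff, b1, b2]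
  rcases abs_cases (ht τ (v - cn (a - 1) - p)) with c | c <;> constructor <;> intro <;> linarith

theorem Chp.loc (h : Chp Λ b n r p S ν τ) {m : ℕ} (hm : n * 3 + 33 ≤ m) (hr : 12 * m + 404 ≤ r) :
    ∃ x e, ∃ c : ℤ × ℤ → Bool, zd x p ≤ 12 * m + 400 ∧ RemE Λ x (e + 2) ∧ Touch Λ x ∧
      (∀ g, 12 * m + 400 < zd g p → c g = b g) ∧ ∀ v a, zd v p ≤ 12 * m + 401 → Touch Λ v →
        RemE Λ v a → (WallE c v a ↔ v = x ∧ a = e + 2) := by
  classical
  obtain ⟨f, f1, f2⟩ := h.inn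
  obtain ⟨f', f3, f4⟩ := h.out
  obtain ⟨x, e, ρ, η, hl, l1, l2⟩ := exists_ln h.fr h.epi h.mem f1 f3 f2 f4 (m := m) (by omega)
  refine ⟨x, e, fun g => if zd g x ≤ ρ then decide (lt e x g ↔ η = 1) else b g, by omega,
    rem_of_low hl.low, hl.touch, fun g hg => if_neg ?_, fun v a hv ⟨j, hj⟩ hrem => ?_⟩
  · have := zd_tri g x p
    omega
  by_cases c : zd v x + 1 ≤ ρ
  · have a1 := cn2 v x (a - 1)
    have a2 := cn2 v x a
    rw [WallE, if_pos (by omega), if_pos (by omega), Ne, decide_eq_decide]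
    have a3 : ((lt e x (v - cn (a - 1)) ↔ η = 1) ↔ (lt e x (v - cn a) ↔ η = 1)) ↔
        (lt e x (v - cn (a - 1)) ↔ lt e x (v - cn a)) := by tauto
    rw [a3, lt_wall]
    refine ⟨fun ⟨c1, c2⟩ => hl.rem (by omega) c1 c2 ⟨j, hj⟩ hrem, ?_⟩
    rintro ⟨rfl, rfl⟩
    exact ⟨by simp [hE], Or.inr rfl⟩
  · have t1 := zd_tri v p x
    rw [zd_comm p x] at t1
    have same : ∀ k, v - cn k ∉ Λ → (if zd (v - cn k) x ≤ ρ then
        decide (lt e x (v - cn k) ↔ η = 1) else b (v - cn k)) = b (v - cn k) := by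
      intro k hk
      split_ifs with c1
      swap
      · rfl
      have a1 := cn2 v p k
      have a2 : zd (v - cn j) (v - cn k) ≤ 1 := by
        fin_cases j <;> fin_cases k <;> simp [zd, cn]
      have a3 := h.sgn _ (by omega) hk _ hj ((Nat.mul_le_mul_left n (by omega : _ ≤ 3)).trans
        (by omega))
      have a4 := h.big hk hj a2 (by omega)
      have a5 := hl.side _ hk c1 ⟨_, hj, a2⟩
      have a6 := abs_le.1 (ht_le h.fr.nrm (zd_sub x p).ge)
      have a7 : 3 * (zd x p : ℝ) + 30 ≤ zd (v - cn k) p := by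
        exact_mod_cast (by omega : 3 * zd x p + 30 ≤ zd (v - cn k) p)
      have a8 := ht_three τ (v - cn k) x p
      rw [Bool.eq_iff_iff, a3, decide_eq_true_iff]
      push_cast at a4
      generalize lt e x (v - cn k) = L at a5
      rcases hl.sg with rfl | rfl
      · rw [one_mul] at a5
        by_cases c2 : L
        · refine iff_of_true (iff_of_true c2 rfl) ?_
          rcases abs_cases (ht τ (v - cn k - p)) with c | c <;> linarith [a5.1 c2, a6.1]
        · refine iff_of_false (fun o => c2 (o.2 rfl)) (not_lt.2 ?_)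
          rcases abs_cases (ht τ (v - cn k - p)) with c | c <;> linarith [a5.2 c2, a6.2]
      · rw [neg_one_mul] at a5
        by_cases c2 : L
        · refine iff_of_false (fun o => by linarith [o.1 c2]) (not_lt.2 ?_)
          rcases abs_cases (ht τ (v - cn k - p)) with c | c <;> linarith [a5.1 c2, a6.2]
        · refine iff_of_true (iff_of_false c2 (by norm_num)) ?_
          rcases abs_cases (ht τ (v - cn k - p)) with c | c <;> linarith [a5.2 c2, a6.1]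
    refine iff_of_false ?_ ?_
    · rw [WallE, same _ hrem.1, same _ hrem.2]
      exact h.no_wall (R := 1) hrem hj (IMark.zd_cn v j) (by omega) (by omega)
    · rintro ⟨rfl, -⟩
      simp only [zd, sub_self, Int.natAbs_zero, max_self] at c
      omega

theorem markM : MarkM := by
  classical
  intro n R₀
  obtain ⟨m, hm⟩ : ∃ m, m = n * (R₀ + 1 + 2) + 3 * (R₀ + 1) + 30 := ⟨_, rfl⟩
  obtain ⟨K, hK⟩ : ∃ K, K = 12 * m + 400 := ⟨_, rfl⟩
  have m1 : n * 3 ≤ n * (R₀ + 1 + 2) := Nat.mul_le_mul_left _ (by omega)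
  refine ⟨2 * K + 2, fun Ex Λ b F N r h hr htr => ?_⟩
  have ch : ∀ p ∈ F, ∃ S ν τ, Chp Λ b n r p S ν τ := fun p hp => by
    obtain ⟨S, ν, τ, a1, a2, a3, -, ⟨f, f1, f2⟩, ⟨f', f3, f4⟩, a4, a5⟩ := h.chart p hp
    refine ⟨{g | g - p ∈ S}, ν, τ, ⟨a1, a2⟩, fun u hu v hv => ?_,
      ⟨p + f, by simpa using f1, by rwa [zd_add_left]⟩,
      ⟨p + f', by simpa using f3, by rwa [zd_add_left]⟩, fun g hg => ?_, fun g hg => ?_⟩
    · have := a3 _ hu v hv
      rwa [sub_add_eq_add_sub] at this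
    · have := a4 (g - p) (by rwa [← zd_sub])
      rwa [add_sub_cancel] at this
    · have := a5 (g - p) (by rwa [← zd_sub])
      rwa [add_sub_cancel, ← zd_sub g p] at this
  have bad : ∀ v a, RemE Λ v a → WallE b v a → ∀ u ∈ Λ, zd u v ≤ R₀ + 1 →
      ∃ p ∈ F, zd v p ≤ K := fun v a h1 h2 u hu h3 => by
    by_contra c
    push Not at c
    by_cases c' : ∀ p ∈ F, r < 2 * zd v p
    · have a1 : ∀ w, zd w v ≤ R₀ + 1 → n * zd w v ≤ r := fun w hw =>
        (Nat.mul_le_mul_left n (by omega : _ ≤ R₀ + 1 + 2)).trans (by omega)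
      obtain ⟨β, hβ⟩ := h.far v c' ⟨u, hu, a1 u h3⟩
      have a2 := fun k => a1 _ ((IMark.zd_cn v k).trans (by omega))
      exact h2 ((hβ _ (a2 _) h1.1).trans (hβ _ (a2 _) h1.2).symm)
    · push Not at c'
      obtain ⟨p, hp, c'⟩ := c'
      obtain ⟨S, ν, τ, k⟩ := ch p hp
      have := c p hp
      exact k.no_wall h1 hu h3 (by omega) (by omega) h2
  obtain ⟨z, hz, zi, zs⟩ : ∃ z : Fin F.card → ℤ × ℤ, (∀ i, z i ∈ F) ∧ Function.Injective z ∧
      ∀ v ∈ F, ∃ i, z i = v :=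
    ⟨fun i => F.equivFin.symm i, fun i => (F.equivFin.symm i).2,
      Subtype.val_injective.comp F.equivFin.symm.injective,
      fun v hv => ⟨F.equivFin ⟨v, hv⟩, by simp⟩⟩
  choose S ν τ hc using fun i => ch (z i) (hz i)
  choose x e c l1 l2 l3 l4 l5 using fun i => (hc i).loc (m := m) (by omega) (by omega)
  rw [← hK] at l1 l4
  have sp : ∀ i j g, zd g (z i) + zd g (z j) ≤ 2 * r → i = j := fun i j g hg => by
    by_contra k
    have a1 := h.sep _ (hz i) _ (hz j) (zi.ne k)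
    have a2 := zd_tri (z i) g (z j)
    rw [zd_comm (z i) g] at a2
    omega
  obtain ⟨b', e1, e2⟩ : ∃ b' : ℤ × ℤ → Bool, (∀ g i, zd g (z i) ≤ r → b' g = c i g) ∧
      ∀ g, (∀ i, K < zd g (z i)) → b' g = b g := by
    refine ⟨fun g => if k : ∃ i, zd g (z i) ≤ r then c k.choose g else b g, fun g i hg => ?_,
      fun g hg => ?_⟩
    · have k : ∃ i, zd g (z i) ≤ r := ⟨i, hg⟩
      have := k.choose_spec
      simp only [dif_pos k]
      rw [sp k.choose i g (by omega)]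
    · beta_reduce
      split_ifs with k
      exacts [l4 _ g (hg _), rfl]
  have fr : ∀ v a, (∀ i, K + 1 < zd v (z i)) → RemE Λ v a → ∀ u ∈ Λ, zd u v ≤ R₀ + 1 →
      ¬ WallE b' v a := fun v a hv h1 u hu h3 h2 => by
    have same : ∀ j, b' (v - cn j) = b (v - cn j) := fun j => e2 _ fun i => by
      have a1 := cn2 v (z i) j
      have a2 := hv i
      omega
    obtain ⟨p, hp, k⟩ := bad v a h1 (by rwa [WallE, same, same] at h2) u hu h3
    obtain ⟨i, rfl⟩ := zs p hp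
    have := hv i
    omega
  refine ⟨x, e, ν, b', ⟨fun i => ⟨(hc i).fr.1, ⟨{v | x i + v ∈ S i}, fun u hu v hv => ?_,
    fun v hv => (hc i).mem _ ?_⟩, l2 i, l3 i, ?_⟩, fun i j k => ?_⟩,
    ⟨fun v a ht hrem => ?_, fun v hv => e2 v fun i => ?_, fun v a h1 h2 ⟨u, hu, h3⟩ => ?_⟩,
    fun i => ⟨z i, hz i, (l1 i).trans (by omega)⟩⟩
  · have := (hc i).epi _ hu v hv
    rwa [add_assoc] at this
  · have a1 := zd_tri (x i + v) (x i) (z i)
    have a2 := l1 i
    rw [zd_add_left] at a1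
    omega
  · obtain ⟨H, V, a1, a2⟩ := htr _ (hz i)
    refine ⟨H, V, fun v hv => a1 v ?_, a2⟩
    have a3 := zd_tri v (x i) (z i)
    have a4 := l1 i
    omega
  · by_contra o
    have a1 := zd_tri (x i) (x j) (z j)
    have a2 := l1 i
    have a3 := l1 j
    exact k (sp i j (x i) (by omega))
  · by_cases hv : ∃ i, zd v (z i) ≤ K + 1
    · obtain ⟨i, hi⟩ := hv
      have a1 := cn2 v (z i) (a - 1)
      have a2 := cn2 v (z i) a
      rw [WallE, e1 _ i (by omega), e1 _ i (by omega)]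
      refine (l5 i v a (by omega) ht hrem).trans ⟨fun k => ⟨i, k⟩, fun ⟨j, k⟩ => ?_⟩
      have a3 := l1 j
      rw [← k.1] at a3
      rwa [sp i j v (by omega)]
    · push Not at hv
      obtain ⟨j, hj⟩ := ht
      refine iff_of_false (fr v a hv hrem _ hj ((IMark.zd_cn v j).trans (by omega))) ?_
      rintro ⟨i, rfl, -⟩
      have a1 := hv i
      have a2 := l1 i
      omega
  · have a1 := hv i
    have a2 := zd_tri v (z i) (x i)
    have a3 := l1 i
    rw [zd_comm (z i)] at a2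
    omega
  · by_contra o
    push Not at o
    refine fr v a (fun i => ?_) h1 u hu (by omega) h2
    have a1 := o i
    have a2 := zd_tri v (z i) (x i)
    have a3 := l1 i
    rw [zd_comm (z i)] at a2
    omega

end Vale.Agent.P144C.G
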