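import Vale.Agent.P144C.G.Mod
import Vale.Agent.P144D.I.Mark.Main

/-!
The marked vertex near a sign change at a Lipschitz point.
-/

namespace Vale.Agent.P144C.G

open Finset Vale.Agent.P144Z Vale.Agent.P144L P144L.G IMark
open Vale.Agent.P144Z.GeoA (zd_tri zd_comm)

variable {ν τ : ℂ} {Λ : Finset (ℤ × ℤ)} {S : Set (ℤ × ℤ)} {p : ℤ × ℤ} {r : ℕ}

theorem hE_add (e : Fin 4) (u v : ℤ × ℤ) : hE e (u + v) = hE e u + hE e v := by
  simp only [hE, Prod.fst_add, Prod.snd_add]; ring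

theorem hE_sub (e : Fin 4) (u v : ℤ × ℤ) : hE e (u - v) = hE e u - hE e v := by
  simp only [hE, Prod.fst_sub, Prod.snd_sub]; ring

theorem hE_smul (e : Fin 4) (t : ℤ) (v : ℤ × ℤ) : hE e (t • v) = t * hE e v := by
  simp only [hE, Prod.smul_fst, Prod.smul_snd, smul_eq_mul]; ring

/-- Axes adapted to the frame. -/
structure Ax (ν τ : ℂ) (e e' : Fin 4) (a b ε : ℝ) : Prop where
  adj : e' = e + 1 ∨ e' = e + 3
  b0 : 0 ≤ b
  ba : b ≤ a
  a1 : a ≤ 1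
  sg : ε = 1 ∨ ε = -1
  nu : ∀ d, ht ν d = a * hE e d + b * hE e' d
  tau : ∀ d, ε * ht τ d = a * hE e' d - b * hE e d

theorem Fr.ax (h : Fr ν τ) : ∃ e e' a b ε, Ax ν τ e e' a b ε := by
  obtain ⟨e, he⟩ : ∃ e : Fin 4, |ht ν (st4 (e + 1))| ≤ ht ν (st4 e) := by
    rcases le_total |ν.im| |ν.re| with k | k
    · rcases le_total 0 ν.re with k' | k'
      · exact ⟨0, by simpa [ht, st4, abs_of_nonneg k'] using k⟩
      · exact ⟨2, by simpa [ht, st4, abs_of_nonpos k'] using k⟩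
    · rcases le_total 0 ν.im with k' | k'
      · exact ⟨1, by simpa [ht, st4, abs_of_nonneg k'] using k⟩
      · exact ⟨3, by simpa [ht, st4, abs_of_nonpos k'] using k⟩
  have e1 : ∀ d, ht (Complex.I * ν) d =
      ht ν (st4 e) * hE (e + 1) d - ht ν (st4 (e + 1)) * hE e d := fun d => by
    fin_cases e <;> simp [ht, hE, st4] <;> ring
  have e2 : ∀ d, hE (e + 3) d = -hE (e + 1) d := fun d => by fin_cases e <;> simp [hE, st4]
  have a1 : ht ν (st4 e) ≤ 1 := by nlinarith [sq_eq h.1 e, sq_nonneg (ht ν (st4 (e + 1)))]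
  obtain ⟨ε, hε, e3⟩ : ∃ ε : ℝ, (ε = 1 ∨ ε = -1) ∧ ∀ d, ε * ht τ d = ht (Complex.I * ν) d := by
    rcases h.2 with rfl | rfl
    · exact ⟨1, Or.inl rfl, fun d => one_mul _⟩
    · exact ⟨-1, Or.inr rfl, fun d => by rw [ht_neg']; ring⟩
  rcases le_total 0 (ht ν (st4 (e + 1))) with k | k
  · exact ⟨e, e + 1, _, _, ε, Or.inl rfl, k, (le_abs_self _).trans he, a1, hε,
      fun d => by rw [ht_eq ν e d]; ring, fun d => by rw [e3, e1]⟩
  · refine ⟨e, e + 3, ht ν (st4 e), -ht ν (st4 (e + 1)), -ε, Or.inr rfl, by linarith,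
      (neg_le_abs _).trans he, a1, hε.symm.imp (fun k => by rw [k, neg_neg]) fun k => by rw [k],
      fun d => by rw [ht_eq ν e d, e2]; push_cast; ring, fun d => ?_⟩
    rw [neg_mul, e3, e1, e2]
    push_cast
    ring

variable {e e' : Fin 4} {a b ε : ℝ}

theorem Ax.abs (h : Ax ν τ e e' a b ε) (d : ℤ × ℤ) :
    |ht τ d| = |a * hE e' d - b * hE e d| := by
  rw [← h.tau, abs_mul]
  rcases h.sg with rfl | rfl <;> simp

theorem Ax.cn (h : Ax ν τ e e' a b ε) (hF : Fr ν τ) {d : ℤ × ℤ} (h1 : 0 ≤ hE e' d)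
    (h2 : hE e' d ≤ hE e d) : Cn ν d := by
  refine hF.cn ?_
  have a1 : (0 : ℝ) ≤ hE e' d := by exact_mod_cast h1
  have a2 : (hE e' d : ℝ) ≤ hE e d := by exact_mod_cast h2
  rw [h.abs, h.nu, abs_le]
  constructor <;> nlinarith [h.b0, h.ba]

theorem Ax.quad (h : Ax ν τ e e' a b ε) (hF : Fr ν τ) {d : ℤ × ℤ} (h1 : 0 ≤ hE e' d)
    (h2 : 0 ≤ hE e d) (h3 : ¬ Cn ν d) : 0 ≤ ε * ht τ d := by
  have a1 : (0 : ℝ) ≤ hE e' d := by exact_mod_cast h1
  have a2 : (0 : ℝ) ≤ hE e d := by exact_mod_cast h2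
  by_contra c
  refine h3 (hF.cn ?_)
  rw [h.tau] at c
  rw [h.abs, h.nu, abs_le]
  constructor <;> nlinarith [h.b0, h.ba]

theorem zd_adj (h : e' = e + 1 ∨ e' = e + 3) (g z : ℤ × ℤ) :
    zd g z = max (hE e (g - z)).natAbs (hE e' (g - z)).natAbs := by
  rcases h with rfl | rfl <;> fin_cases e <;> simp [hE, st4, zd] <;> omega

theorem hE_st4 (h : e' = e + 1 ∨ e' = e + 3) : hE e (st4 e) = 1 ∧ hE e' (st4 e) = 0 ∧
    hE e (st4 e') = 0 ∧ hE e' (st4 e') = 1 := by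
  revert e e'
  decide

theorem hE_cn' (e k : Fin 4) : (hE e (1, 1) = 1 ∧ 0 ≤ hE e (cn k) ∧ hE e (cn k) ≤ 1) ∨
    (hE e (1, 1) = -1 ∧ -1 ≤ hE e (cn k) ∧ hE e (cn k) ≤ 0) := by
  revert e k
  decide

theorem exists_cn (h : e' = e + 1 ∨ e' = e + 3) :
    ∃ k, 2 * hE e (cn k) + 1 = hE e (1, 1) ∧ 2 * hE e' (cn k) + 1 = hE e' (1, 1) := by
  revert e e'
  decide

theorem lt_adj (h : e' = e + 1 ∨ e' = e + 3) : ∃ η : ℝ, (η = 1 ∨ η = -1) ∧ ∀ x g,
    (η = 1 → (lt e x g ↔ 0 < 2 * hE e' (g - x) + hE e' (1, 1)) ∧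
      (lt e' x g ↔ 2 * hE e (g - x) + hE e (1, 1) < 0)) ∧
    (η = -1 → (lt e x g ↔ 2 * hE e' (g - x) + hE e' (1, 1) < 0) ∧
      (lt e' x g ↔ 0 < 2 * hE e (g - x) + hE e (1, 1))) := by
  rcases h with rfl | rfl
  · refine ⟨1, Or.inl rfl, fun x g => ⟨fun _ => ⟨Iff.rfl, ?_⟩, fun k => by norm_num at k⟩⟩
    fin_cases e <;> simp [lt, hE, st4] <;> omega
  · refine ⟨-1, Or.inr rfl, fun x g => ⟨fun k => by norm_num at k, fun _ => ⟨?_, ?_⟩⟩⟩ <;>
      fin_cases e <;> simp [lt, hE, st4] <;> omega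

/-- A line that crosses the boundary once. -/
structure Ln (Λ : Finset (ℤ × ℤ)) (τ : ℂ) (x : ℤ × ℤ) (e : Fin 4) (ρ : ℕ) (η : ℝ) : Prop where
  sg : η = 1 ∨ η = -1
  touch : Touch Λ x
  low : ¬ Touch Λ (x - st4 e)
  up : ∀ (g : ℤ × ℤ) (n : ℕ), g ∈ Λ → zd g x ≤ ρ + 2 → zd (g + (n : ℤ) • st4 e) x ≤ ρ + 2 →
    g + (n : ℤ) • st4 e ∈ Λ
  side : ∀ g, g ∉ Λ → zd g x ≤ ρ → (∃ u ∈ Λ, zd u g ≤ 1) →
    (lt e x g → -6 ≤ η * ht τ (g - x)) ∧ (¬ lt e x g → η * ht τ (g - x) ≤ 6)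

theorem Ln.rem {x v : ℤ × ℤ} {e a : Fin 4} {ρ : ℕ} {η : ℝ} (h : Ln Λ τ x e ρ η)
    (hv : zd v x ≤ ρ) (h0 : hE (e + 1) (v - x) = 0) (ha : a = e ∨ a = e + 2) (h1 : Touch Λ v)
    (h2 : RemE Λ v a) : v = x ∧ a = e + 2 := by
  have hrem := rem_of_low h.low
  obtain ⟨k, hk⟩ := h.touch
  have pres : ∀ n : ℕ, n ≤ ρ → ¬ RemE Λ (x + (n : ℤ) • st4 e) e := by
    intro n hn hr
    have a1 : k = e - 1 ∨ k = e := by
      rcases fin_four e k with a2 | a2 | rfl | rfl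
      exacts [Or.inl a2, Or.inr a2, (hrem.1 hk).elim, (hrem.2 hk).elim]
    have a3 := IMark.zd_cn x k
    have a4 : x - cn k + (n : ℤ) • st4 e ∈ Λ := by
      refine h.up _ n hk (by omega) ?_
      have a5 := zd_tri (x - cn k + (n : ℤ) • st4 e) (x - cn k) x
      rw [zd_add0, zd_smul] at a5
      omega
    rw [← add_sub_right_comm] at a4
    rcases a1 with rfl | rfl
    exacts [hr.1 a4, hr.2 a4]
  have hl := line_eq h0
  have hz : (hE e (v - x)).natAbs ≤ zd v x := by rw [zd_eq e]; exact le_max_left _ _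
  generalize hE e (v - x) = t at hl hz
  rcases lt_or_ge t 0 with h5 | h5
  · exfalso
    obtain ⟨j, hj⟩ := h1
    obtain ⟨n, hn⟩ : ∃ n : ℕ, t = -(n + 1) := ⟨(-t - 1).toNat, by omega⟩
    have a1 := IMark.zd_cn v j
    have a2 := zd_tri (v - cn j) v x
    have a3 : v - cn j + (n : ℤ) • st4 e = x - st4 e - cn j := by
      rw [hl, hn, neg_smul, add_smul, one_smul]
      abel
    refine h.low ⟨j, a3 ▸ h.up _ n hj (by omega) ?_⟩
    rw [a3]
    have a4 := IMark.zd_cn (x - st4 e) j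
    have a5 := zd_tri (x - st4 e - cn j) (x - st4 e) x
    have a6 : zd (x - st4 e) x ≤ 1 := by fin_cases e <;> simp [zd, st4]
    omega
  obtain ⟨n, rfl⟩ := Int.eq_ofNat_of_zero_le h5
  rcases ha with rfl | rfl
  · exact (pres n (by omega) (hl ▸ h2)).elim
  rcases n with _ | n
  · exact ⟨by simpa using hl, rfl⟩
  · refine (pres n (by omega) (rem_down _ e ?_)).elim
    rw [hl] at h2
    push_cast at h2
    rwa [add_smul, one_smul, ← add_assoc] at h2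

theorem eps_le (h : Ax ν τ e e' a b ε) (hF : Fr ν τ) {u v : ℤ × ℤ} {n : ℕ} (k : zd u v ≤ n) :
    |ε * ht τ (u - v)| ≤ 3 / 2 * n := by
  have := ht_le hF.nrm (zd_sub u v ▸ k)
  rw [abs_mul]
  rcases h.sg with rfl | rfl <;> simpa using this

theorem ht_three (μ : ℂ) (u v w : ℤ × ℤ) : ht μ (u - w) = ht μ (u - v) + ht μ (v - w) := by
  rw [← B1b.ht_add, sub_add_sub_cancel]

/-- The line in the direction of the best axis. -/
theorem ln_ver (h : Ax ν τ e e' a b ε) (hF : Fr ν τ) (hS : Epi S ν (√2 / 2))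
    (hΛ : ∀ g, zd g p ≤ r → (g ∈ Λ ↔ g ∈ S)) {x : ℤ × ℤ} {ρ : ℕ} (hx : zd x p + ρ + 2 ≤ r)
    (h1 : Touch Λ x) (h2 : ¬ Touch Λ (x - st4 e)) : ∃ η, Ln Λ τ x e ρ η := by
  have ch : ∀ g, zd g x ≤ ρ + 2 → (g ∈ Λ ↔ g ∈ S) := fun g hg =>
    hΛ g (by have := zd_tri g x p; omega)
  have qd : ∀ u v, u ∈ Λ → v ∉ Λ → zd u x ≤ ρ + 2 → zd v x ≤ ρ + 2 → 0 ≤ hE e' (v - u) →
      0 ≤ hE e (v - u) → 0 ≤ ε * ht τ (v - u) := fun u v a1 a2 a3 a4 a5 a6 =>
    h.quad hF a5 a6 fun c => a2 ((ch v a4).2 (by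
      have := hS u ((ch u a3).1 a1) _ c
      rwa [add_sub_cancel] at this))
  obtain ⟨s1, s2, -⟩ := hE_st4 h.adj
  have key : ∀ g, g ∉ Λ → zd g x ≤ ρ → (∃ u ∈ Λ, zd u g ≤ 1) →
      (0 ≤ 2 * hE e' (g - x) + hE e' (1, 1) → -6 ≤ ε * ht τ (g - x)) ∧
      (2 * hE e' (g - x) + hE e' (1, 1) ≤ 0 → ε * ht τ (g - x) ≤ 6) := by
    rintro g g1 g2 ⟨u, u1, u2⟩
    have b0 := h.b0
    have a0 := b0.trans h.ba
    have b1 := h.ba.trans h.a1
    constructor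
    · intro c
      obtain ⟨k, hk⟩ := h1
      have k1 := hE_cn' e k
      have k2 := hE_cn' e' k
      have k3 := IMark.zd_cn x k
      by_cases c' : 0 ≤ 2 * hE e (g - x) + hE e (1, 1)
      · have := qd _ g hk g1 (by omega) (by omega) (by simp only [hE_sub] at *; omega)
          (by simp only [hE_sub] at *; omega)
        have k4 := (abs_le.1 (eps_le h hF k3)).1
        rw [ht_three τ g (x - cn k) x, mul_add]
        push_cast at k4
        linarith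
      · have k4 : (0 : ℝ) ≤ hE e' (g - x) := by exact_mod_cast (by omega : 0 ≤ hE e' (g - x))
        have k5 : (hE e (g - x) : ℝ) ≤ 0 := by exact_mod_cast (by omega : hE e (g - x) ≤ 0)
        rw [h.tau]
        nlinarith
    · intro c
      obtain ⟨k, k1, k2⟩ := exists_cn h.adj
      have k3 := hE_cn' e k
      have k0 := hE_cn' e' k
      by_cases c' : -1 ≤ 2 * hE e (g - x) + hE e (1, 1)
      · have k4 : (hE e' (g - x) : ℝ) ≤ 0 := by exact_mod_cast (by omega : hE e' (g - x) ≤ 0)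
        have k5 : (-1 : ℝ) ≤ hE e (g - x) := by exact_mod_cast (by omega : -1 ≤ hE e (g - x))
        rw [h.tau]
        nlinarith
      · have k4 := zd_adj h.adj u g
        have k5 : zd (x - st4 e - cn k) x ≤ 2 := by
          rw [zd_adj h.adj]
          simp only [hE_sub]
          omega
        have k6 := zd_tri u g x
        have := qd u (x - st4 e - cn k) u1 (fun o => h2 ⟨k, o⟩) (by omega) (by omega)
          (by simp only [hE_sub] at *; omega) (by simp only [hE_sub] at *; omega)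
        have k7 := (abs_le.1 (eps_le h hF k5)).2
        have k8 := (abs_le.1 (eps_le h hF u2)).1
        have k9 := ht_three τ (x - st4 e - cn k) u x
        rw [ht_three τ u g x] at k9
        rw [k9, mul_add, mul_add] at k7
        push_cast at k7 k8
        linarith
  obtain ⟨η, hη, hl⟩ := lt_adj h.adj
  have up : ∀ (g : ℤ × ℤ) (n : ℕ), g ∈ Λ → zd g x ≤ ρ + 2 → zd (g + (n : ℤ) • st4 e) x ≤ ρ + 2 →
      g + (n : ℤ) • st4 e ∈ Λ := fun g n g1 g2 g3 => (ch _ g3).2 (hS g ((ch g g2).1 g1) _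
        (h.cn hF (by rw [hE_smul, s2]; omega) (by rw [hE_smul, hE_smul, s1, s2]; omega)))
  rcases hη with k | k
  · refine ⟨ε, h.sg, h1, h2, up, fun g g1 g2 g3 => ?_⟩
    rw [((hl x g).1 k).1]
    exact ⟨fun c => (key g g1 g2 g3).1 c.le, fun c => (key g g1 g2 g3).2 (not_lt.1 c)⟩
  · refine ⟨-ε, h.sg.symm.imp (fun k => by rw [k, neg_neg]) fun k => by rw [k], h1, h2, up,
      fun g g1 g2 g3 => ?_⟩
    rw [((hl x g).2 k).1, neg_mul]
    exact ⟨fun c => by linarith [(key g g1 g2 g3).2 c.le],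
      fun c => by linarith [(key g g1 g2 g3).1 (not_lt.1 c)]⟩

/-- The line across a straight wall. -/
theorem ln_hor (h : Ax ν τ e e' a b ε) {x : ℤ × ℤ} {ρ : ℕ} {k : Fin 4}
    (hΛ : ∀ g, zd g x ≤ ρ + 2 → (g ∈ Λ ↔ 0 ≤ hE e' (g - x) + hE e' (cn k)))
    (h2 : ¬ Touch Λ (x - st4 e')) : ∃ η, Ln Λ τ x e' ρ η := by
  obtain ⟨-, -, -, s4⟩ := hE_st4 h.adj
  have k0 := hE_cn' e' k
  have k1 := hE_cn' e k
  have h1 : Touch Λ x := ⟨k, (hΛ _ ((IMark.zd_cn x k).trans (by omega))).2 (by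
    simp only [hE_sub]; omega)⟩
  have up : ∀ (g : ℤ × ℤ) (n : ℕ), g ∈ Λ → zd g x ≤ ρ + 2 → zd (g + (n : ℤ) • st4 e') x ≤ ρ + 2 →
      g + (n : ℤ) • st4 e' ∈ Λ := fun g n g1 g2 g3 => by
    rw [hΛ _ g3]
    rw [hΛ _ g2] at g1
    simp only [hE_sub, hE_add, hE_smul, s4] at *
    omega
  have key : ∀ g, g ∉ Λ → zd g x ≤ ρ → (∃ u ∈ Λ, zd u g ≤ 1) →
      (0 ≤ 2 * hE e (g - x) + hE e (1, 1) → ε * ht τ (g - x) ≤ 6) ∧
      (2 * hE e (g - x) + hE e (1, 1) ≤ 0 → -6 ≤ ε * ht τ (g - x)) := by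
    rintro g g1 g2 ⟨u, u1, u2⟩
    have b0 := h.b0
    have a0 := b0.trans h.ba
    have a1 := h.a1
    have t1 := zd_tri u g x
    rw [hΛ g (by omega)] at g1
    rw [hΛ u (by omega)] at u1
    rw [zd_adj h.adj] at u2
    have k4 : (hE e' (g - x) : ℝ) ≤ 0 := by exact_mod_cast (by omega : hE e' (g - x) ≤ 0)
    have k5 : (-2 : ℝ) ≤ hE e' (g - x) := by
      exact_mod_cast (by simp only [hE_sub] at *; omega : -2 ≤ hE e' (g - x))
    rw [h.tau]
    constructor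
    · intro c
      have k6 : (0 : ℝ) ≤ hE e (g - x) := by exact_mod_cast (by omega : 0 ≤ hE e (g - x))
      nlinarith
    · intro c
      have k6 : (hE e (g - x) : ℝ) ≤ 0 := by exact_mod_cast (by omega : hE e (g - x) ≤ 0)
      nlinarith
  obtain ⟨η, hη, hl⟩ := lt_adj h.adj
  rcases hη with c | c
  · refine ⟨ε, h.sg, h1, h2, up, fun g g1 g2 g3 => ?_⟩
    rw [((hl x g).1 c).2]
    exact ⟨fun c => (key g g1 g2 g3).2 c.le, fun c => (key g g1 g2 g3).1 (not_lt.1 c)⟩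
  · refine ⟨-ε, h.sg.symm.imp (fun k => by rw [k, neg_neg]) fun k => by rw [k], h1, h2, up,
      fun g g1 g2 g3 => ?_⟩
    rw [((hl x g).2 c).2, neg_mul]
    exact ⟨fun c => by linarith [(key g g1 g2 g3).1 c.le],
      fun c => by linarith [(key g g1 g2 g3).2 (not_lt.1 c)]⟩

theorem exists_ln (hF : Fr ν τ) (hS : Epi S ν (√2 / 2)) (hΛ : ∀ g, zd g p ≤ r → (g ∈ Λ ↔ g ∈ S))
    {f f' : ℤ × ℤ} (hf : f ∈ S) (hf' : f' ∉ S) (z1 : zd f p ≤ 4) (z2 : zd f' p ≤ 4) {m : ℕ}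
    (hr : 12 * m + 402 ≤ r) : ∃ x e ρ η, Ln Λ τ x e ρ η ∧ 4 * zd x p + m ≤ ρ ∧
      zd x p + ρ ≤ 12 * m + 400 := by
  classical
  obtain ⟨e, e', a, b, ε, h⟩ := hF.ax
  obtain ⟨s1, s2, s3, s4⟩ := hE_st4 h.adj
  obtain ⟨P, hP⟩ : ∃ P : ℤ → ℤ → ℤ × ℤ, ∀ w t, P w t = p + w • st4 e' + t • st4 e :=
    ⟨_, fun _ _ => rfl⟩
  have c1 : ∀ w t, hE e (P w t) = hE e p + t ∧ hE e' (P w t) = hE e' p + w := fun w t => by
    simp only [hP, hE_add, hE_smul, s1, s2, s3, s4]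
    omega
  have zz := zd_adj h.adj
  simp only [hE_sub] at zz
  have mv : ∀ u v, u ∈ S → hE e' u ≤ hE e' v → hE e' v - hE e' u ≤ hE e v - hE e u → v ∈ S :=
    fun u v a1 a2 a3 => by
      have := hS u a1 (v - u) (h.cn hF (by rw [hE_sub]; omega) (by rwa [hE_sub, hE_sub]))
      rwa [add_sub_cancel] at this
  obtain ⟨H, hH⟩ : ∃ H : ℕ, H = 2 * m + 60 := ⟨_, rfl⟩
  have ch : ∀ (w t : ℤ) k, w.natAbs ≤ H → t.natAbs ≤ H → (P w t - cn k ∈ Λ ↔ P w t - cn k ∈ S) :=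
    fun w t k a1 a2 => hΛ _ (by
      have := c1 w t
      have := hE_cn' e k
      have := hE_cn' e' k
      simp only [zz, hE_sub]
      omega)
  rw [zz] at z1 z2
  have top : Touch Λ (P (-6 + (11 : ℕ)) H) := ⟨0, (ch _ _ 0 (by omega) (by omega)).2 (by
    have := c1 (-6 + (11 : ℕ)) H
    have := hE_cn' e 0
    have := hE_cn' e' 0
    refine mv f _ hf ?_ ?_ <;> simp only [hE_sub] <;> omega)⟩
  have ex : ∃ n : ℕ, Touch Λ (P (-6 + n) H) := ⟨_, top⟩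
  have n0 : Nat.find ex ≤ 11 := Nat.find_min' ex top
  have n1 := Nat.find_spec ex
  have n2 := fun m => Nat.find_min ex (m := m)
  generalize Nat.find ex = n at n0 n1 n2
  by_cases c : Touch Λ (P (-6 + n) (-H))
  · obtain ⟨k, hk⟩ := c
    rw [ch _ _ k (by omega) (by omega)] at hk
    have k1 := hE_cn' e k
    have k2 := hE_cn' e' k
    have k3 := c1 (-6 + n) (-H)
    have n3 : n ≠ 0 := by
      rintro rfl
      refine hf' (mv _ _ hk ?_ ?_) <;> simp only [hE_sub] <;> omega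
    have n4 : ∀ j, P (-6 + (n - 1 : ℕ)) H - cn j ∉ S := fun j o =>
      n2 (n - 1) (by omega) ⟨j, (ch _ _ j (by omega) (by omega)).2 o⟩
    have k4 := c1 (-6 + (n - 1 : ℕ)) H
    have k5 := c1 (-6 + n) 0
    have k6 : zd (P (-6 + n) 0) p ≤ 6 := by rw [zz]; omega
    have loc : ∀ g, zd g (P (-6 + n) 0) ≤ m + 24 + 2 →
        (g ∈ Λ ↔ 0 ≤ hE e' (g - P (-6 + n) 0) + hE e' (cn k)) := fun g hg => by
      have t1 := zd_tri g (P (-6 + n) 0) p
      rw [hΛ g (by omega), hE_sub]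
      rw [zz] at hg
      refine ⟨fun o => by_contra fun o' => n4 k (mv _ _ o ?_ ?_), fun o => mv _ _ hk ?_ ?_⟩ <;>
        simp only [hE_sub] <;> omega
    obtain ⟨η, hl⟩ := ln_hor h loc (by
      rintro ⟨j, hj⟩
      have j1 := hE_cn' e j
      have j2 := hE_cn' e' j
      rw [hΛ _ (by simp only [zz, hE_sub]; omega)] at hj
      refine n4 j (mv _ _ hj ?_ ?_) <;> simp only [hE_sub] <;> omega)
    exact ⟨_, _, _, η, hl, by omega, by omega⟩
  · have ex : ∃ t : ℕ, Touch Λ (P (-6 + n) (-H + t)) :=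
      ⟨H + H, by rwa [Nat.cast_add, neg_add_cancel_left]⟩
    have t0 : Nat.find ex ≤ H + H := Nat.find_min' ex (by rwa [Nat.cast_add, neg_add_cancel_left])
    have t1 := Nat.find_spec ex
    have t2 := fun m => Nat.find_min ex (m := m)
    generalize Nat.find ex = t at t0 t1 t2
    have t3 : t ≠ 0 := by
      rintro rfl
      exact c (by simpa using t1)
    have k5 := c1 (-6 + n) (-H + t)
    have k6 : zd (P (-6 + n) (-H + t)) p ≤ H := by rw [zz]; omega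
    obtain ⟨η, hl⟩ := ln_ver h hF hS hΛ (ρ := 4 * H + m) (by omega) t1 (by
      have := t2 (t - 1) (by omega)
      rwa [hP, Nat.cast_sub (by omega), Nat.cast_one, ← add_sub_assoc, sub_smul, one_smul,
        ← add_sub_assoc, ← hP] at this)
    exact ⟨_, _, _, η, hl, by omega, by omega⟩

end Vale.Agent.P144C.G
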